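import Vale.Agent.P146.Power.Main
import Vale.Agent.P146.Power.Calc
import Vale.Agent.P146.Power.Interp
import Vale.Agent.P146.Power.Sym
import Vale.Agent.P146.Power.Span
import Vale.Agent.P146.Power.Eigen
import Vale.Agent.P146.Power.Pattern
import Vale.Agent.P146.Power.Good.Trace

namespace Vale.Agent.Results.P146.PolynomialSuperconcentration

open MeasureTheory ProbabilityTheory

/-- At every inverse temperature the variance of the free energy of the Sherrington-Kirkpatrick
model is smaller than `n` by a power of `n`. -/
theorem result : ∀ β : ℝ, ∃ C : ℝ, ∀ n : ℕ, 0 < n →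
    variance (Vale.Agent.P146.freeEnergy n β) (Vale.Agent.P146.disorderLaw n) ≤
      C * (n : ℝ) ^ (99 / 100 : ℝ) :=
  Vale.Agent.P146.Power.variance_freeEnergy_le Vale.Agent.P146.Power.calc_statement
    Vale.Agent.P146.Power.interp_statement Vale.Agent.P146.Power.sym_statement
    Vale.Agent.P146.Power.span_statement Vale.Agent.P146.Power.eigen_statement
    Vale.Agent.P146.Power.pattern_statement Vale.Agent.P146.Power.good_statement

end Vale.Agent.Results.P146.PolynomialSuperconcentration
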