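import Vale.Agent.P146.Gap.Spread
import Vale.Agent.P146.Gap.Spectrum

namespace Vale.Agent.Results.P146.VarianceDivergesLowTemperature

open MeasureTheory ProbabilityTheory Filter

/-- At every fixed inverse temperature above the critical one, the free energy of the
Sherrington-Kirkpatrick model has no window of constant width with probability bounded below, and
its variance tends to infinity. -/
theorem result : ∀ β : ℝ, 1 < β →
    (∀ R : ℝ, ∀ ε : ℝ, 0 < ε → ∀ᶠ n in atTop, ∀ m : ℝ,
      (Vale.Agent.P146.disorderLaw n).real
        {g | |Vale.Agent.P146.freeEnergy n β g - m| ≤ R} ≤ ε) ∧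
    Tendsto (fun n => variance (Vale.Agent.P146.freeEnergy n β) (Vale.Agent.P146.disorderLaw n))
      atTop atTop :=
  fun _ hβ => ⟨fun R _ hε => Vale.Agent.P146.Gap.spread_of Vale.Agent.P146.Gap.spectrum hβ R hε,
    Vale.Agent.P146.Gap.variance_tendsto_of Vale.Agent.P146.Gap.spectrum hβ⟩

end Vale.Agent.Results.P146.VarianceDivergesLowTemperature
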